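/-
P235, line HUB (helper15): 2-sums at hub edges.  Statements.
-/
import Vale.Agent.P235.R2.H598.PSum

namespace Vale.Agent.P235.Hub

open Vale.Agent.P235 Vale.Agent.P235.R2.H598

/-- an `L₁` semimetric between `c d` and `d`, exact on the pair `s t` -/
def RootTight {V : Type} (d : V → V → ℝ) (s t : V) (c : ℝ) : Prop :=
  ∃ F : V → V → ℝ, IsL1 F ∧ F s t = d s t ∧ (∀ x y, c * d x y ≤ F x y) ∧ ∀ x y, F x y ≤ d x y

/-- [ROOT] -/
def RootStmt : Prop :=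
  ∀ c : ℝ, 0 < c → c ≤ 1 → ∀ (V : Type) [Finite V] (G : SimpleGraph V) (d : V → V → ℝ),
    IsMet d → ∀ s t, G.Adj s t → RootTight d s t c → ∀ D, c / 2496 / 120 * d s t ≤ D →
      D ≤ d s t → ∃ F : V → V → ℝ, IsL1 F ∧ F s t = D ∧
        EmbOn Set.univ G d (c / 2496 / 120) (4 / (c / 2496 / 120)) s t F

/-- [SUP] -/
def SupStmt : Prop :=
  ∀ (V : Type) (G : SimpleGraph V) (d : V → V → ℝ), IsMet d → Gen G d → ∀ θ : ℝ, 0 < θ →
    ∀ (R : V → V → Prop) (lam : V → V → ℝ), (∀ u v, G.Adj u v → R u v) →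
      (∀ u v, R u v → θ * d u v ≤ lam u v) → (∀ u v, G.Adj u v → lam u v ≤ d u v) →
      ∃ D : V → V → ℝ, IsMet D ∧ (∀ x y, θ * d x y ≤ D x y) ∧ (∀ x y, D x y ≤ d x y) ∧
        (∀ u v, R u v → D u v ≤ lam u v) ∧
        ∀ f : V → ℝ, (∀ u v, R u v → |f u - f v| ≤ lam u v) → ∀ x y, |f x - f y| ≤ D x y

/-- [AMALG] -/
def AmalgStmt : Prop :=
  ∀ (V : Type) (G : SimpleGraph V) (d : V → V → ℝ), IsMet d → Gen G d →
    ∀ (A B : Set V) (s t : V), A ∪ B = Set.univ → A ∩ B = {s, t} →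
      (∀ a b, a ∉ B → b ∉ A → ¬ G.Adj a b) → ∀ θ : ℝ, 0 < θ →
      ∀ (hsA : s ∈ A) (htA : t ∈ A) (hsB : s ∈ B) (htB : t ∈ B)
        (DA : A → A → ℝ) (DB : B → B → ℝ), IsMet DA → IsMet DB →
        Gen (G.induce A) DA → Gen (G.induce B) DB →
        (∀ x y : A, θ * d x y ≤ DA x y) → (∀ x y : A, DA x y ≤ d x y) →
        (∀ x y : B, θ * d x y ≤ DB x y) → (∀ x y : B, DB x y ≤ d x y) →
        DA ⟨s, hsA⟩ ⟨t, htA⟩ = DB ⟨s, hsB⟩ ⟨t, htB⟩ →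
        ∃ D : V → V → ℝ, IsMet D ∧ Gen G D ∧ (∀ x y, θ * d x y ≤ D x y) ∧
          (∀ x y, D x y ≤ d x y) ∧ (∀ x y : A, D x y = DA x y) ∧ ∀ x y : B, D x y = DB x y

/-- [LOSSY] -/
def LossyStmt : Prop :=
  ∀ C : ℝ, 1 ≤ C → ∀ (V : Type) [Finite V] (d ρ : V → V → ℝ), IsMet d → IsL1 ρ →
    (∀ x y, d x y ≤ ρ x y) → (∀ x y, ρ x y ≤ C * d x y) →
    ∀ (k : ℕ) (A : Set V), A.ncard ≤ k → ∀ s t : V, ∃ F : V → V → ℝ, IsL1 F ∧ F s t = d s t ∧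
      (∀ a ∈ A, ∀ x, F a x ≤ d a x) ∧ (∀ x y, F x y ≤ (2 * C + 3) * d x y) ∧
      ∀ x y, d x y ≤ 640 * (k + 1) * F x y

/-- [PIECE] -/
def PieceStmt : Prop :=
  ∀ C : ℝ, 1 ≤ C → ∀ (k : ℕ) (V : Type) [Finite V] (G : SimpleGraph V), G.Connected →
    DistortionLE G C → ∀ A : Set V, A.ncard ≤ k → ∀ d : V → V → ℝ, IsMet d → Gen G d →
    ∀ s t, G.Adj s t → ∃ D : V → V → ℝ, IsMet D ∧ Gen G D ∧
      (∀ x y, 1 / (2 * C + 3) * d x y ≤ D x y) ∧ (∀ x y, D x y ≤ d x y) ∧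
      D s t = 1 / (2 * C + 3) * d s t ∧
      (∀ u v, G.Adj u v → (u ∈ A ∨ v ∈ A) → D u v = 1 / (2 * C + 3) * d u v) ∧
      RootTight D s t (1 / (640 * (k + 1) * (2 * C + 3)))

/-- A piece, with the relation `E` of the edges to which later pieces may be glued: a graph of the
class `P`, or a graph of distortion at most `C` with at most `k` hubs such that `E` contains only
pairs with a hub. -/
def Piece (P : ∀ V : Type, SimpleGraph V → Prop) (C : ℝ) (k : ℕ) {V : Type} (G : SimpleGraph V)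
    (E : V → V → Prop) : Prop :=
  P V G ∨ G.Connected ∧ DistortionLE G C ∧ ∃ A : Set V, A.ncard ≤ k ∧ ∀ u v, E u v → u ∈ A ∨ v ∈ A

/-- Graphs built by gluing pieces one after another, each one along an edge, to an edge allowed by
one of the earlier pieces. -/
inductive HubSum (P : ∀ V : Type, SimpleGraph V → Prop) (C : ℝ) (k : ℕ) :
    ∀ {V : Type}, SimpleGraph V → (V → V → Prop) → Prop
  | base {V : Type} {G : SimpleGraph V} {E : V → V → Prop} : Piece P C k G E → HubSum P C k G E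
  | glue {V : Type} {G : SimpleGraph V} {A B : Set V} {s t : V} {hs : s ∈ A} {ht : t ∈ A}
      {EA : A → A → Prop} {EB : B → B → Prop} {E : V → V → Prop} :
      A ∪ B = Set.univ → A ∩ B = {s, t} → (∀ a b, a ∉ B → b ∉ A → ¬ G.Adj a b) → G.Adj s t →
      HubSum P C k (G.induce A) EA → EA ⟨s, hs⟩ ⟨t, ht⟩ → Piece P C k (G.induce B) EB →
      (∀ u v, E u v → (∃ (hu : u ∈ A) (hv : v ∈ A), EA ⟨u, hu⟩ ⟨v, hv⟩) ∨
        ∃ (hu : u ∈ B) (hv : v ∈ B), EB ⟨u, hu⟩ ⟨v, hv⟩) → HubSum P C k G E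

/-- [MAIN] -/
def MainStmt : Prop :=
  ∀ (P : ∀ V : Type, SimpleGraph V → Prop) (c₁ C : ℝ) (k : ℕ), 0 < c₁ → c₁ ≤ 1 → 1 ≤ C →
    (∀ (V : Type) [Finite V] (G : SimpleGraph V), P V G → EdgeExact G c₁) →
    ∀ (V : Type) [Finite V] (G H : SimpleGraph V) (E : V → V → Prop), HubSum P C k H E → G ≤ H →
      G.Connected → DistortionLE G
        (29952000 * (2 * C + 3) * (1 / c₁ + 640 * (k + 1) * (2 * C + 3)))

end Vale.Agent.P235.Hub
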