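/-
P235, line HUB: all rows plugged.
-/
import Vale.Agent.P235.Hub.H15.Nu2
import Vale.Agent.P235.Hub.H309.Lossy
import Vale.Agent.P235.Hub.H465.Sup
import Vale.Agent.P235.Hub.H669.Amalg
import Vale.Agent.P235.Hub.H424.Piece
import Vale.Agent.P235.Hub.H696.Root
import Vale.Agent.P235.Hub.H261.Main
import Vale.Agent.P235.Hub.H45.Exit

namespace Vale.Agent.P235.Hub

open Vale.Agent.P235

theorem lossy : LossyStmt := H309.lossy nuThm

theorem piece : PieceStmt := H424.piece lossy H465.sup

theorem mainThm : MainStmt := H261.main_of H696.root (H669.amalg H465.sup) piece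

end Vale.Agent.P235.Hub
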