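/-
P235, line HUB (helper15): version with `log k` instead of `k`.  Statements.
-/
import Vale.Agent.P235.Hub.Defs

namespace Vale.Agent.P235.Hub

open Vale.Agent.P235 Vale.Agent.P235.R2.H598

/-- `⌊log₂ (k + 2)⌋ + 1` -/
noncomputable def Lg (k : ℕ) : ℝ := (Nat.log 2 (k + 2) : ℝ) + 1

theorem one_le_Lg (k : ℕ) : 1 ≤ Lg k := by
  have : (0 : ℝ) ≤ (Nat.log 2 (k + 2) : ℝ) := Nat.cast_nonneg _
  unfold Lg; linarith

/-- [LOSSY2] -/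
def LossyStmt2 : Prop :=
  ∀ C : ℝ, 1 ≤ C → ∀ (V : Type) [Finite V] (d ρ : V → V → ℝ), IsMet d → IsL1 ρ →
    (∀ x y, d x y ≤ ρ x y) → (∀ x y, ρ x y ≤ C * d x y) →
    ∀ (k : ℕ) (A : Set V), A.ncard ≤ k → ∀ s t : V, ∃ F : V → V → ℝ, IsL1 F ∧ F s t = d s t ∧
      (∀ a ∈ A, ∀ x, F a x ≤ d a x) ∧ (∀ x y, F x y ≤ (2 * C + 3) * d x y) ∧
      ∀ x y, d x y ≤ 1024 * Lg k * F x y

/-- [PIECE2] -/
def PieceStmt2 : Prop :=
  ∀ C : ℝ, 1 ≤ C → ∀ (k : ℕ) (V : Type) [Finite V] (G : SimpleGraph V), G.Connected →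
    DistortionLE G C → ∀ A : Set V, A.ncard ≤ k → ∀ d : V → V → ℝ, IsMet d → Gen G d →
    ∀ s t, G.Adj s t → ∃ D : V → V → ℝ, IsMet D ∧ Gen G D ∧
      (∀ x y, 1 / (2 * C + 3) * d x y ≤ D x y) ∧ (∀ x y, D x y ≤ d x y) ∧
      D s t = 1 / (2 * C + 3) * d s t ∧
      (∀ u v, G.Adj u v → (u ∈ A ∨ v ∈ A) → D u v = 1 / (2 * C + 3) * d u v) ∧
      RootTight D s t (1 / (1024 * Lg k * (2 * C + 3)))

/-- [MAIN2] -/
def MainStmt2 : Prop :=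
  ∀ (P : ∀ V : Type, SimpleGraph V → Prop) (c₁ C : ℝ) (k : ℕ), 0 < c₁ → c₁ ≤ 1 → 1 ≤ C →
    (∀ (V : Type) [Finite V] (G : SimpleGraph V), P V G → EdgeExact G c₁) →
    ∀ (V : Type) [Finite V] (G H : SimpleGraph V) (E : V → V → Prop), HubSum P C k H E → G ≤ H →
      G.Connected → DistortionLE G
        (29952000 * (2 * C + 3) * (1 / c₁ + 1024 * Lg k * (2 * C + 3)))

end Vale.Agent.P235.Hub
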